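import Vale.Agent.P216.H808.Z10Props

/-!
# P216-B7, Z10, row B: the cohomology over a small set comes from the fibre over one of its points

The starting points of the paths in the covering separate the paths of `Low.XS` into clopen sheets;
a cochain is cut off outside of the sheet of `v`.
-/

set_option linter.all false

open Set BoundedContinuousFunction

namespace Vale.Agent.P216.B7x754

open Vale.Agent.P216.Sl Vale.Agent.P216.PS Vale.Agent.P216.B7 Vale.Agent.P216.H808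
open Vale.Agent.P216.H456 (PF PF_mono mem_PF_iff P_subset_PF)
open Vale.Agent.P216.H971.Low (ExC)

/-! ### Cut off -/

section cut

variable {k : Type} [Field k] {E : Type} [PseudoMetricSpace E] {X Y : Set E} {m : ℕ}

open Classical in
/-- `f` on the lists whose first point is in `S`, `0` on the others. -/
noncomputable def cut (S : Set E) (f : List E → k) : List E → k
  | [] => 0
  | x :: l => if x ∈ S then f (x :: l) else 0

theorem cut_of_mem {S : Set E} {f : List E → k} {l : List E} (hl : l ≠ []) (h : ∀ x ∈ l, x ∈ S) :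
    cut S f l = f l := by
  rcases l with _ | ⟨x, l⟩
  · exact absurd rfl hl
  · exact if_pos (h x List.mem_cons_self)

theorem cut_of_not {S : Set E} {f : List E → k} {l : List E} (h : ∀ x ∈ l, x ∉ S) :
    cut S f l = 0 := by
  rcases l with _ | ⟨x, l⟩
  · rfl
  · exact if_neg (h x List.mem_cons_self)

/-- The cut off of a cocycle. -/
theorem cocL_cut {S : Set E} {f : List E → k} (hXY : ∀ x ∈ Y, x ∈ S → x ∈ X)
    (hS : ∃ δ > 0, ∀ x ∈ Y, ∀ y ∈ Y, dist x y < δ → x ∈ S → y ∈ S) (hf : CocL X m f) :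
    CocL Y m (cut S f) := by
  obtain ⟨ε, hε, hf⟩ := hf
  obtain ⟨δ, hδ, hS⟩ := hS
  refine ⟨min ε δ, lt_min hε hδ, fun l hl hs => ?_⟩
  by_cases h : ∃ x ∈ l, x ∈ S
  · obtain ⟨x, hx, hxS⟩ := h
    have hall : ∀ y ∈ l, y ∈ S := fun y hy => hS x (hs.1 x hx) y (hs.1 y hy)
      ((hs.2 x hx y hy).trans_le (min_le_right _ _)) hxS
    have e : dl (cut S f) l = dl f l := by
      refine dl_congr fun l' hl' hm => cut_of_mem ?_ fun y hy => hall y (hm y hy)
      rintro rfl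
      simp at hl'
      omega
    rw [e]
    exact hf l hl ⟨fun y hy => hXY y (hs.1 y hy) (hall y hy), fun y hy y' hy' =>
      (hs.2 y hy y' hy').trans_le (min_le_left _ _)⟩
  · push Not at h
    have e : dl (cut S f) l = dl (fun _ => (0 : k)) l :=
      dl_congr fun l' hl' hm => cut_of_not fun y hy => h y (hm y hy)
    rw [e, H971.Low.dl_zero]

/-- The cut off of a cochain which is zero on the small lists. -/
theorem cut_zero {S : Set E} {f : List E → k} (hXY : ∀ x ∈ Y, x ∈ S → x ∈ X)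
    (hS : ∃ δ > 0, ∀ x ∈ Y, ∀ y ∈ Y, dist x y < δ → x ∈ S → y ∈ S)
    (hf : ∃ ε > 0, ∀ l, l.length = m + 1 → SmL X ε l → f l = 0) :
    ExC Y m (cut S f) := by
  obtain ⟨ε, hε, hf⟩ := hf
  obtain ⟨δ, hδ, hS⟩ := hS
  refine ⟨fun _ => 0, min ε δ, lt_min hε hδ, fun l hl hs => ?_⟩
  rw [H971.Low.dl_zero]
  by_cases h : ∃ x ∈ l, x ∈ S
  · obtain ⟨x, hx, hxS⟩ := h
    have hall : ∀ y ∈ l, y ∈ S := fun y hy => hS x (hs.1 x hx) y (hs.1 y hy)
      ((hs.2 x hx y hy).trans_le (min_le_right _ _)) hxS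
    rw [cut_of_mem (by rintro rfl; simp at hl) hall]
    exact hf l hl ⟨fun y hy => hXY y (hs.1 y hy) (hall y hy), fun y hy y' hy' =>
      (hs.2 y hy y' hy').trans_le (min_le_left _ _)⟩
  · push Not at h
    exact cut_of_not h

/-- `f` is exact on the sheet if its cut off is. -/
theorem exC_of_cut {S Z : Set E} {f : List E → k} (h : ExC Y m (cut S f)) (hZ : Z ⊆ Y)
    (hZS : Z ⊆ S) : ExC Z m f := by
  obtain ⟨g, ε, hε, h⟩ := h
  refine ⟨g, ε, hε, fun l hl hs => ?_⟩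
  rw [← h l hl (hs.mono hZ le_rfl), cut_of_mem (by rintro rfl; simp at hl)
    fun x hx => hZS (hs.1 x hx)]

end cut

/-! ### The circle -/

theorem ex_eq_iff {a b : ℝ} : ex a = ex b ↔ ∃ n : ℤ, a = b + n := by
  unfold ex
  rw [Circle.exp_eq_exp]
  have h2 : (2 * Real.pi) ≠ 0 := by positivity
  constructor
  · rintro ⟨n, hn⟩
    refine ⟨n, ?_⟩
    have : 2 * Real.pi * a = 2 * Real.pi * (b + n) := by rw [hn]; ring
    exact mul_left_cancel₀ h2 this
  · rintro ⟨n, rfl⟩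
    exact ⟨n, by ring⟩

theorem exists_arg (ε : ℝ) (hε : 0 < ε) : ∃ η > 0, ∀ a b : ℝ, dist (ex a) (ex b) < η →
    ∃ n : ℤ, |a - b - n| < ε := by
  have h1 : ContinuousAt Complex.arg (1 : ℂ) :=
    Complex.continuousAt_arg Complex.one_mem_slitPlane
  obtain ⟨η, hη, h2⟩ := Metric.continuousAt_iff.1 h1 (2 * Real.pi * ε) (by positivity)
  refine ⟨η, hη, fun a b hab => ?_⟩
  have e1 : ex (a - b) * ex b = ex a := by
    unfold ex
    rw [← Circle.exp_add]
    congr 1
    ring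
  have h3 : dist ((ex (a - b) : Circle) : ℂ) 1 < η := by
    have h4 : dist (ex a) (ex b) = ‖((ex a : Circle) : ℂ) - (ex b : Circle)‖ := by
      rw [← dist_eq_norm]
      rfl
    rw [h4, ← e1, Circle.coe_mul] at hab
    have e2 : ((ex (a - b) : Circle) : ℂ) * (ex b : Circle) - (ex b : Circle) =
        (((ex (a - b) : Circle) : ℂ) - 1) * (ex b : Circle) := by ring
    rw [e2, norm_mul, Circle.norm_coe, mul_one] at hab
    rwa [dist_eq_norm]
  have h5 := h2 h3
  rw [Complex.arg_one, Real.dist_eq, sub_zero] at h5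
  have h6 : Circle.exp (Complex.arg ((ex (a - b) : Circle) : ℂ)) = ex (a - b) := Circle.exp_arg _
  have h7 : ex (a - b) = Circle.exp (2 * Real.pi * (a - b)) := rfl
  rw [h7, Circle.exp_eq_exp] at h6
  obtain ⟨n, hn⟩ := h6
  refine ⟨-n, ?_⟩
  rw [← h7] at hn
  rw [hn] at h5
  have e3 : 2 * Real.pi * (a - b) + n * (2 * Real.pi) = (2 * Real.pi) * (a - b - ((-n : ℤ) : ℝ)) := by
    push_cast
    ring
  rw [e3, abs_mul, abs_of_pos (by positivity : 0 < 2 * Real.pi)] at h5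
  exact lt_of_mul_lt_mul_left h5 (by positivity)

/-- Near points have near heights modulo the integers. -/
theorem exists_near {M : Type} [MetricSpace M] [CompactSpace M] (h : C(M, Circle)) {ε : ℝ}
    (hε : 0 < ε) : ∃ δ > 0, ∀ x y : M, dist x y < δ → ∀ a b : ℝ, h x = ex a → h y = ex b →
      ∃ n : ℤ, |a - b - n| < ε := by
  obtain ⟨η, hη, h1⟩ := exists_arg ε hε
  obtain ⟨δ, hδ, h2⟩ := Metric.uniformContinuous_iff.1
    (CompactSpace.uniformContinuous_of_continuous h.continuous) η hη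
  refine ⟨δ, hδ, fun x y hxy a b ha hb => h1 a b ?_⟩
  rw [← ha, ← hb]
  exact h2 hxy

theorem int_zero {x ε : ℝ} {n : ℤ} (h1 : |x| < 1 / 2) (h2 : |x - n| < ε) (hε : ε ≤ 1 / 8) :
    n = 0 := by
  have h3 := abs_lt.1 h1
  have h4 := abs_lt.1 h2
  have h5 : (n : ℝ) < 1 := by linarith
  have h6 : (-1 : ℝ) < n := by linarith
  have h7 : n < 1 := by exact_mod_cast h5
  have h8 : -1 < n := by exact_mod_cast h6
  omega

/-! ### Row B -/

theorem bGoal (hA : AGoal) : BGoal := by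
  intro M _ _ ρ hρ hU h
  refine ⟨ρ, hρ.le, fun r hr => ?_⟩
  obtain ⟨δ, hδ, hnear⟩ := exists_near h (ε := min (r / 2) (1 / 8)) (by positivity)
  obtain ⟨r', hr', hr1, hr2, hr3, hr4⟩ : ∃ r' > 0, r' ≤ r / 4 ∧ r' ≤ δ / 4 ∧ r' ≤ ρ / 2 ∧
      r' ≤ 1 / 8 := by
    refine ⟨min (min (r / 4) (δ / 4)) (min (ρ / 2) (1 / 8)), by positivity, ?_, ?_, ?_, ?_⟩
    · exact (min_le_left _ _).trans (min_le_left _ _)
    · exact (min_le_left _ _).trans (min_le_right _ _)
    · exact (min_le_right _ _).trans (min_le_left _ _)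
    · exact (min_le_right _ _).trans (min_le_right _ _)
  refine ⟨r', hr', by linarith, fun b hb t ht σ v hv hvX k _ m f hf hex => ?_⟩
  rcases (XS h b σ r' t).eq_empty_or_nonempty with he | ⟨w₀, hw₀⟩
  · rw [he]
    exact H971.Low.exC_empty
  have hT0 : 0 ≤ t + ρ := by linarith
  obtain ⟨h1, h2, ⟨R₀, h3⟩, h4⟩ := hA M h b hb (t + ρ) hT0
  have hfst : ∀ w, (lab h b w).1 = w 0 := fun w => rfl
  have hht : ∀ w ∈ PF b.1 (t + ρ), h (w 0) = ex (lab h b w).2 := fun w hw => (h3 w hw).1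
  obtain ⟨S, hSd⟩ : ∃ S : Set (ℝ →ᵇ M), S = {w | |(lab h b w).2 - v.2| < 1 / 2} := ⟨_, rfl⟩
  have hSm : ∀ w, w ∈ S ↔ |(lab h b w).2 - v.2| < 1 / 2 := fun w => by rw [hSd]; rfl
  -- the sheet
  have hsh : ∀ w ∈ PF b.1 (t + ρ), dist (w 0) v.1 ≤ 2 * r' → w ∈ S →
      |(lab h b w).2 - v.2| < min (r / 2) (1 / 8) := fun w hw hd hS => by
    obtain ⟨n, hn⟩ := hnear (w 0) v.1 (by linarith) _ _ (hht w hw) hvX
    have h5 := int_zero ((hSm w).1 hS) hn (min_le_right _ _)
    rw [h5, Int.cast_zero, sub_zero] at hn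
    exact hn
  obtain ⟨δ', hδ', hcl⟩ := h4 (1 / 8) (by norm_num)
  have hcl' : ∀ x ∈ PF b.1 (t + ρ), dist (x 0) v.1 ≤ 2 * r' → ∀ y ∈ PF b.1 (t + ρ),
      dist x y < δ' → x ∈ S → y ∈ S := fun x hx hx0 y hy hxy hS => by
    have h5 := hsh x hx hx0 hS
    have h6 := hcl x hx y hy hxy
    have h7 : |(lab h b x).2 - (lab h b y).2| < 1 / 8 :=
      (le_max_right _ _).trans_lt h6
    rw [hSm]
    have h8 := abs_lt.1 (h5.trans_le (min_le_right _ _))
    have h9 := abs_lt.1 h7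
    rw [abs_lt]
    constructor <;> linarith
  -- the cocycle which is zero on the fibre
  obtain ⟨g, ε, hε, hg⟩ := hex
  have hf1 : CocL (XS h b σ r (t + ρ)) m fun l => f l - dl g l := by
    obtain ⟨ε₁, hε₁, hf⟩ := hf
    refine ⟨ε₁, hε₁, fun l hl hs => ?_⟩
    rw [H971.Low.dl_sub, hf l hl hs, dl_dl, sub_zero]
  have hA1 : CocL (H971.Low.XS b.1 (σ.map Prod.fst) (2 * r') (t + 2 * (ρ / 2))) m
      (cut S fun l => f l - dl g l) := by
    have e : t + 2 * (ρ / 2) = t + ρ := by ring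
    rw [e]
    have hv1 : v.1 ∈ σ.map Prod.fst := List.mem_map_of_mem hv
    refine cocL_cut (X := XS h b σ r (t + ρ)) (fun w hw hS => ⟨hw.1, fun v' hv' => ?_⟩)
      ⟨δ', hδ', fun x hx y hy => hcl' x hx.1 (hx.2 _ hv1) y hy.1⟩ hf1
    have h5 := hsh w hw.1 (hw.2 _ hv1) hS
    have h6 : dist (w 0) v'.1 ≤ 2 * r' := hw.2 _ (List.mem_map_of_mem hv')
    have h7 : |(lab h b w₀).2 - v'.2| ≤ r' := (le_max_right _ _).trans (hw₀.2 v' hv')
    have h8 : |(lab h b w₀).2 - v.2| ≤ r' := (le_max_right _ _).trans (hw₀.2 v hv)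
    have h9 := abs_lt.1 (h5.trans_le (min_le_left _ _))
    have h7' := abs_le.1 h7
    have h8' := abs_le.1 h8
    rw [Prod.dist_eq]
    refine max_le (h6.trans (by linarith)) ?_
    rw [Real.dist_eq, abs_le]
    constructor <;> linarith
  have hA2 : ExC (P v.1 b.1 (t + 2 * (ρ / 2))) m (cut S fun l => f l - dl g l) := by
    have e : t + 2 * (ρ / 2) = t + ρ := by ring
    rw [e]
    have hd0 : ∀ w ∈ P v.1 b.1 (t + ρ), dist (w 0) v.1 ≤ 2 * r' := fun w hw => by
      rw [eq_left hw le_rfl, dist_self]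
      positivity
    refine cut_zero (X := Fb h b v (t + ρ)) (fun w hw hS => ⟨P_subset_PF hw, ?_⟩)
      ⟨δ', hδ', fun x hx y hy => hcl' x (P_subset_PF hx) (hd0 x hx) y (P_subset_PF hy)⟩
      ⟨ε, hε, fun l hl hs => sub_eq_zero.2 (hg l hl hs)⟩
    have h5 := hht w (P_subset_PF hw)
    rw [eq_left hw le_rfl] at h5
    have h6 : ex (lab h b w).2 = ex v.2 := h5.symm.trans hvX
    obtain ⟨n, hn⟩ := ex_eq_iff.1 h6
    have h7 := (hSm w).1 hS
    have h8 : n = 0 := by
      refine int_zero (ε := 1 / 8) h7 ?_ le_rfl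
      rw [hn]
      norm_num
    rw [h8, Int.cast_zero, add_zero] at hn
    exact Prod.ext (eq_left hw le_rfl) hn
  have hA3 := H971.Low.exC_XS hU (by positivity : 0 < ρ / 2) (by linarith)
    (List.mem_map_of_mem (f := Prod.fst) hv) hr'.le hr3 ht hA1 hA2
  have hA4 : ExC (XS h b σ r' t) m fun l => f l - dl g l := by
    have hZ : XS h b σ r' t ⊆ H971.Low.XS b.1 (σ.map Prod.fst) r' t := fun w hw =>
      ⟨hw.1, fun x hx => by
        obtain ⟨v', hv', rfl⟩ := List.mem_map.1 hx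
        exact (le_max_left _ _).trans (hw.2 v' hv')⟩
    refine exC_of_cut hA3 hZ fun w hw => ?_
    rw [hSm]
    have h5 : |(lab h b w).2 - v.2| ≤ r' := (le_max_right _ _).trans (hw.2 v hv)
    linarith
  have hA5 : ExC (XS h b σ r' t) m fun l => dl g l := ⟨g, 1, one_pos, fun _ _ _ => rfl⟩
  refine (hA4.add hA5).congr fun l _ => ?_
  ring

end Vale.Agent.P216.B7x754
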