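import Vale.Agent.P216.H971.LowGood

/-!
# P216-B7, Z10: the zigzag for an abstract family of sets

`B`: base points, `E`: total space, `S σ ⊆ E` antitone in the tuple `σ`.
`exists_goodS` = ZA1, `GoodS.cocL_ct` = ZA3, `GoodS.exC` = ZA4.
-/

set_option linter.unusedVariables false
set_option linter.unusedSectionVars false

open Set Finsupp

namespace Vale.Agent.P216.B7x754

open Sl PS
open H971.Low

variable {k : Type} [Field k] {B E : Type} [MetricSpace B] [PseudoMetricSpace E]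

/-- The double cochain `ζ` of total length `N` is closed over the tuples of length `≤ a`. -/
structure GoodS (S : List B → Set E) (F : Finset B) (N a : ℕ) (ζ : List B → List E → k) :
    Prop where
  nil : ∀ l, ζ [] l = 0
  rep : ∀ (v : B) (n : ℕ), 2 ≤ n → ∀ l, ζ (List.replicate n v) l = 0
  cl : ∃ ε > 0, ∀ σ l, σ ≠ [] → σ.length ≤ a → (∀ v ∈ σ, v ∈ F) → σ.length + l.length = N + 1 →
    SmL (S σ) ε l → Dd ζ σ l = 0

/-- antitone in the tuple -/
def Anti (S : List B → Set E) : Prop := ∀ σ τ, (∀ v ∈ τ, v ∈ σ) → S σ ⊆ S τ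

variable {S S' : List B → Set E} {F : Finset B} {N a : ℕ} {ζ ζ' : List B → List E → k}

theorem GoodS.mono (h : GoodS S F N a ζ) (hs : ∀ σ, S' σ ⊆ S σ) : GoodS S' F N a ζ := by
  obtain ⟨h1, h2, ε, hε, h3⟩ := h
  exact ⟨h1, h2, ε, hε, fun σ l h4 h5 h6 h7 h8 => h3 σ l h4 h5 h6 h7
    (h8.mono (hs σ) le_rfl)⟩

/-- The obstruction cocycle. -/
noncomputable def obS (ζ : List B → List E → k) (σ : List B) (l : List E) : k :=
  (-1 : k) ^ σ.length * dl (fun τ => ζ τ l) σ

theorem GoodS.cocL (h : GoodS S F N a ζ) (hS : Anti S) {σ : List B} (ha : 1 ≤ a) {m : ℕ}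
    (hN : a + m + 1 = N) (hσ : σ.length = a + 1) (hF : ∀ v ∈ σ, v ∈ F) :
    CocL (S σ) m (obS ζ σ) := by
  obtain ⟨h1, h2, ε, hε, h3⟩ := h
  refine ⟨ε, hε, fun l hl hs => ?_⟩
  unfold obS
  rw [dl_mul_left, dl_comm]
  have e : dl (fun τ => dl (ζ τ) l) σ = dl (fun τ => (-1 : k) ^ a * dl (fun τ' => ζ τ' l) τ) σ := by
    refine dl_congr fun τ hτ hm => ?_
    have hτa : τ.length = a := by omega
    have h4 := h3 τ l (by rintro rfl; simp at hτa; omega) hτa.le
      (fun v hv => hF v (hm v hv)) (by omega)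
      (hs.mono (hS _ _ hm) le_rfl)
    unfold Dd at h4
    rw [hτa] at h4
    have h5 := neg_one_sq_pow (k := k) a
    linear_combination (-(-1 : k) ^ a) * h4 - dl (ζ τ) l * h5
  rw [e, dl_mul_left, dl_dl]
  ring

theorem obS_replicate (h : GoodS S F N a ζ) (ha : 1 ≤ a) (v : B) (l : List E) :
    obS ζ (List.replicate (a + 1) v) l = 0 := by
  unfold obS
  rcases dl_replicate (f := fun τ => ζ τ l) (v := v) (n := a) fun hn => h.rep v a hn l with h1 | h1
  · rw [h1, mul_zero]
  · omega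

/-- **One step.** -/
theorem GoodS.step (h : GoodS S F N a ζ) (ha : 1 ≤ a) {m : ℕ} (hN : a + m + 1 = N)
    (hs : ∀ σ, S' σ ⊆ S σ)
    (hex : ∀ σ : List B, σ.length = a + 1 → (∀ v ∈ σ, v ∈ F) → ExC (S' σ) m (obS ζ σ)) :
    ∃ ζ' : List B → List E → k, GoodS S' F N (a + 1) ζ' ∧
      ∀ σ, σ.length ≤ a → ζ' σ = ζ σ := by
  classical
  have h' := h.mono hs
  have hch : ∀ σ : List B, ∃ g : List E → k, ((∃ v, σ = List.replicate (a + 1) v) →
      ∀ l, g l = 0) ∧ (σ.length = a + 1 → (∀ v ∈ σ, v ∈ F) → ∃ ε > 0, ∀ l, l.length = m + 1 →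
      SmL (S' σ) ε l → obS ζ σ l = dl g l) := by
    intro σ
    by_cases hv : ∃ v, σ = List.replicate (a + 1) v
    · obtain ⟨v, rfl⟩ := hv
      refine ⟨fun _ => 0, fun _ _ => rfl, fun _ _ => ⟨1, one_pos, fun l _ _ => ?_⟩⟩
      rw [obS_replicate h ha, dl_zero]
    · by_cases h1 : σ.length = a + 1 ∧ ∀ v ∈ σ, v ∈ F
      · obtain ⟨g, hg⟩ := hex σ h1.1 h1.2
        exact ⟨g, fun h2 => absurd h2 hv, fun _ _ => hg⟩
      · exact ⟨fun _ => 0, fun _ _ => rfl, fun h2 h3 => absurd ⟨h2, h3⟩ h1⟩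
  choose g hg1 hg2 using hch
  let ζ' : List B → List E → k := fun σ => if σ.length = a + 1 then g σ else ζ σ
  have hne : ∀ σ : List B, σ.length ≠ a + 1 → ζ' σ = ζ σ := fun σ hσ => if_neg hσ
  have heq : ∀ σ : List B, σ.length = a + 1 → ζ' σ = g σ := fun σ hσ => if_pos hσ
  obtain ⟨h1, h2, ε, hε, h3⟩ := h'
  obtain ⟨ε', hε', h4⟩ := exists_eps F (a + 1) (Q := fun σ ε => ∀ l : List E,
      l.length = m + 1 → SmL (S' σ) ε l → obS ζ σ l = dl (g σ) l)
    (fun σ ε ε' hq _ hle l hl hs => hq l hl (hs.mono le_rfl hle)) fun σ hσ hF => hg2 σ hσ hF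
  refine ⟨ζ', ⟨fun l => ?_, fun v n hn l => ?_, min ε ε', lt_min hε hε',
    fun σ l hσ0 hσ hF hl hs => ?_⟩, fun σ hσ => hne σ (by omega)⟩
  · rw [hne [] (by simp)]
    exact h1 l
  · by_cases hna : n = a + 1
    · rw [heq _ (by rw [List.length_replicate, hna]), hna]
      exact hg1 _ ⟨v, rfl⟩ l
    · rw [hne _ (by rwa [List.length_replicate])]
      exact h2 v n hn l
  · have e1 : dl (fun τ => ζ' τ l) σ = dl (fun τ => ζ τ l) σ :=
      dl_congr fun τ hτ _ => by
        show ζ' τ l = ζ τ l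
        rw [hne τ (by omega)]
    rcases hσ.lt_or_eq with h5 | h5
    · have h6 := h3 σ l hσ0 (by omega) hF hl (hs.mono le_rfl (min_le_left _ _))
      unfold Dd at h6 ⊢
      rw [e1, hne σ (by omega)]
      exact h6
    · have h6 := h4 σ h5 hF l (by omega) (hs.mono le_rfl (min_le_right _ _))
      unfold Dd
      rw [e1, heq σ h5, ← h6]
      unfold obS
      have h7 := neg_one_sq_pow (k := k) σ.length
      linear_combination (-(dl (fun τ => ζ τ l) σ)) * h7

/-- The first column. -/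
def colS (z₁ : B → List E → k) : List B → List E → k
  | [v], l => z₁ v l
  | _, _ => 0

theorem good_colS {q : ℕ} {z₁ : B → List E → k}
    (hz : ∀ v ∈ F, CocL (S [v]) q (z₁ v)) : GoodS S F (q + 2) 1 (colS z₁) := by
  obtain ⟨ε, hε, h⟩ := exists_eps F 1 (Q := fun σ ε => ∀ v, σ = [v] → ∀ l : List E,
      l.length = q + 2 → SmL (S [v]) ε l → dl (z₁ v) l = 0)
    (fun σ ε ε' hq _ hle v hv l hl hs => hq v hv l hl (hs.mono le_rfl hle)) fun σ hσ hF => by
      obtain ⟨v, rfl⟩ := List.length_eq_one_iff.1 hσ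
      obtain ⟨ε, hε, h⟩ := hz v (hF v List.mem_cons_self)
      refine ⟨ε, hε, fun v' hv' l hl hs => ?_⟩
      obtain rfl : v = v' := by simpa using hv'
      exact h l hl hs
  refine ⟨fun l => rfl, fun v n hn l => ?_, ε, hε, fun σ l hσ0 hσ hF hl hs => ?_⟩
  · obtain ⟨n', rfl⟩ : ∃ n', n = n' + 2 := ⟨n - 2, by omega⟩
    rfl
  · have hσ1 : σ.length = 1 := by
      have := List.length_pos_iff.2 hσ0
      omega
    have h1 := h σ hσ1 hF
    obtain ⟨v, rfl⟩ := List.length_eq_one_iff.1 hσ1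
    have h2 := h1 v rfl l (by simp at hl; omega) hs
    unfold Dd
    rw [dl_one]
    have e : colS z₁ [v] = z₁ v := rfl
    rw [e, h2]
    show (0 : k) - _ = 0
    ring

/-- **ZA1, the zigzag.** `S n`, `n ≤ q + 1`: the levels. -/
theorem exists_goodS {q : ℕ} {S : ℕ → List B → Set E} (hS : ∀ n, Anti (S n))
    (hSn : ∀ n σ, S n σ ⊆ S (n + 1) σ)
    (hlow : ∀ n < q, ∀ σ : List B, σ ≠ [] → (∀ v ∈ σ, v ∈ F) → ∀ f : List E → k,
      CocL (S (n + 1) σ) n f → ExC (S n σ) n f)
    {z₁ : B → List E → k} (hz : ∀ v ∈ F, CocL (S (q + 1) [v]) q (z₁ v))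
    (hzz : ∀ v ∈ F, ∀ v' ∈ F, ExC (S q [v, v']) q fun l => z₁ v' l - z₁ v l) :
    ∃ ζ : List B → List E → k, GoodS (S 0) F (q + 2) (q + 2) ζ ∧ ∀ v, ζ [v] = z₁ v := by
  have key : ∀ a n : ℕ, 1 ≤ a → a + n = q + 2 → ∃ ζ : List B → List E → k,
      GoodS (S n) F (q + 2) a ζ ∧ ∀ v, ζ [v] = z₁ v := by
    intro a
    induction a with
    | zero => intro n h; omega
    | succ a ih =>
      intro n _ han
      rcases Nat.eq_zero_or_pos a with rfl | ha
      · obtain rfl : n = q + 1 := by omega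
        exact ⟨colS z₁, good_colS hz, fun v => rfl⟩
      · obtain ⟨ζ, hζ, hζ1⟩ := ih (n + 1) ha (by omega)
        obtain ⟨ζ', hζ', hζ2⟩ := hζ.step ha (m := n) (S' := S n) (by omega) (hSn n)
          fun σ hσ hF => by
            by_cases ha1 : a = 1
            · subst ha1
              obtain rfl : n = q := by omega
              obtain ⟨v, v', rfl⟩ := List.length_eq_two.1 hσ
              refine (hzz v (hF v (by simp)) v' (hF v' (by simp))).congr fun l hl => ?_
              unfold obS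
              rw [dl_cons, dl_one, hζ1, hζ1]
              norm_num
            · exact hlow n (by omega) σ (by rintro rfl; simp at hσ) hF _
                (hζ.cocL (hS _) ha (by omega) hσ hF)
        exact ⟨ζ', hζ', fun v => by rw [hζ2 [v] (by simp; omega), hζ1]⟩
  obtain ⟨ζ, hζ, h1⟩ := key (q + 2) 0 (by omega) (by omega)
  exact ⟨ζ, hζ, h1⟩

/-- The cochain on the base. -/
def ctS (φ : B → B) (ζ : List B → List E → k) (l : List B) : k := ζ (l.map φ) []

variable {φ : B → B} {x₁ : B} {A : Set B} {q : ℕ}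

/-- **ZA3**: the cochain on the base is a cocycle. -/
theorem GoodS.cocL_ct (h : GoodS S F (q + 2) (q + 2) ζ) {δ : ℝ} (hδ : 0 < δ)
    (hφF : ∀ x ∈ A, φ x ∈ F)
    (hne : ∀ x ∈ A, ∃ w, ∀ τ : List B, (∀ v ∈ τ, ∃ y ∈ A, dist x y < δ ∧ φ y = v) → w ∈ S τ) :
    CocL A (q + 1) (ctS φ ζ) := by
  obtain ⟨h1, h2, ε, hε, h3⟩ := h
  refine ⟨δ, hδ, fun l hl hs => ?_⟩
  rcases l with _ | ⟨x, l⟩
  · simp at hl
  have hxA : x ∈ A := hs.1 x List.mem_cons_self
  obtain ⟨w, hw⟩ := hne x hxA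
  have e : dl (ctS φ ζ) (x :: l) = dl (fun τ => ζ τ []) ((x :: l).map φ) := by
    rw [← dl_map]
    rfl
  have e1 : dl (fun τ => ζ τ []) ((x :: l).map φ) =
      dl (fun τ => (-1 : k) ^ (q + 2) * dl (fun τ' => ζ τ' [w]) τ) ((x :: l).map φ) := by
    refine dl_congr fun τ hτ hm => ?_
    rw [List.length_map] at hτ
    have hτ2 : τ.length = q + 2 := by omega
    have hτF : ∀ v ∈ τ, v ∈ F := fun v hv => by
      obtain ⟨y, hy, rfl⟩ := List.mem_map.1 (hm v hv)
      exact hφF y (hs.1 y hy)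
    have hwS : w ∈ S τ := hw τ fun v hv => by
      obtain ⟨y, hy, rfl⟩ := List.mem_map.1 (hm v hv)
      exact ⟨y, hs.1 y hy, hs.2 x List.mem_cons_self y hy, rfl⟩
    have h4 := h3 τ [w] (by rintro rfl; simp at hτ2) hτ2.le hτF (by simp [hτ2]) ⟨fun u hu => ?_,
      fun u hu u' hu' => ?_⟩
    · unfold Dd at h4
      rw [dl_one, hτ2] at h4
      have h5 := neg_one_sq_pow (k := k) (q + 2)
      linear_combination (-(-1 : k) ^ (q + 2)) * h4 - ζ τ [] * h5
    · obtain rfl : u = w := by simpa using hu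
      exact hwS
    · obtain rfl : u = w := by simpa using hu
      obtain rfl : u' = u := by simpa using hu'
      rwa [dist_self]
  rw [e, e1, dl_mul_left, dl_dl, mul_zero]

/-- **ZA4**: the class on the fibre over `x₁` is zero if the cochain on the base is exact. -/
theorem GoodS.exC (h : GoodS S F (q + 2) (q + 2) ζ) {T T₁ : Set E} {st : E → B}
    (hφF : ∀ x ∈ A, φ x ∈ F) (hx₁ : x₁ ∈ A) (hφ₁ : φ x₁ = x₁) (hT₁ : T₁ ⊆ T)
    (hst₁ : ∀ w ∈ T₁, st w = x₁) (hstA : ∀ w ∈ T, st w ∈ A)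
    (hst : ∀ ε > 0, ∃ δ > 0, ∀ w ∈ T, ∀ w' ∈ T, dist w w' < δ → dist (st w) (st w') < ε)
    (hmem : ∃ δ > 0, ∀ u ∈ T, ∀ τ : List B,
      (∀ v ∈ τ, ∃ y ∈ T, dist u y < δ ∧ φ (st y) = v) → u ∈ S τ)
    (hTT : ∀ f : List E → k, CocL T q f → ExL T q f)
    (hex : ExL A (q + 1) (ctS φ ζ)) : ExC T₁ q (ζ [x₁]) := by
  obtain ⟨h1, h2, ε, hε, h3⟩ := h
  obtain ⟨β, -, δ, hδ, hβ⟩ := hex
  obtain ⟨δ₁, hδ₁, hev⟩ := hst δ hδ
  obtain ⟨δ₂, hδ₂, hm2⟩ := hmem
  have hZ : CocL T q fun l =>
      kap (fun w => φ (st w)) ζ l - (-1 : k) ^ (q + 2) * β (l.map st) := by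
    refine ⟨min (min ε δ₂) δ₁, by positivity, fun l hl hs => ?_⟩
    have hsd : SmL A δ (l.map st) := by
      refine ⟨fun y hy => ?_, fun y hy y' hy' => ?_⟩
      · obtain ⟨w, hw, rfl⟩ := List.mem_map.1 hy
        exact hstA w (hs.1 w hw)
      · obtain ⟨w, hw, rfl⟩ := List.mem_map.1 hy
        obtain ⟨w', hw', rfl⟩ := List.mem_map.1 hy'
        exact hev w (hs.1 w hw) w' (hs.1 w' hw')
          ((hs.2 w hw w' hw').trans_le (min_le_right _ _))
    rw [dl_sub, dl_mul_left, dl_map, dl_kap, h1 l, ← hβ (l.map st) (by rw [List.length_map]; omega)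
      hsd, hl]
    have e0 : kap (fun w => φ (st w)) (Dd ζ) l = 0 := by
      refine kap_eq_zero _ fun l₁ w l₂ e => ?_
      have hm : ∀ x ∈ l₁ ++ [w], x ∈ l := fun x hx => by
        rw [e]
        rcases List.mem_append.1 hx with hx | hx
        · exact List.mem_append_left _ hx
        · rw [List.mem_singleton.1 hx]
          exact List.mem_append_right _ List.mem_cons_self
      have hm3 : ∀ x ∈ w :: l₂, x ∈ l := fun x hx => by
        rw [e]
        exact List.mem_append_right _ hx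
      have hll : l₁.length + l₂.length + 1 = q + 2 := by
        rw [← hl, e]
        simp only [List.length_append, List.length_cons]
        omega
      refine h3 _ _ (by simp) (by simp; omega) (fun v hv => ?_)
        (by simp only [List.length_map, List.length_append, List.length_cons, List.length_nil]; omega)
        ⟨fun u hu => ?_, fun u hu u' hu' => ?_⟩
      · obtain ⟨y, hy, rfl⟩ := List.mem_map.1 hv
        exact hφF _ (hstA y (hs.1 y (hm y hy)))
      · refine hm2 u (hs.1 u (hm3 u hu)) _ fun v hv => ?_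
        obtain ⟨y, hy, rfl⟩ := List.mem_map.1 hv
        exact ⟨y, hs.1 y (hm y hy), (hs.2 u (hm3 u hu) y (hm y hy)).trans_le
          ((min_le_left _ _).trans (min_le_right _ _)), rfl⟩
      · exact (hs.2 u (hm3 u hu) u' (hm3 u' hu')).trans_le
          ((min_le_left _ _).trans (min_le_left _ _))
    have e1 : ctS φ ζ (l.map st) = ζ (l.map fun w => φ (st w)) [] := by
      unfold ctS
      rw [List.map_map]
      rfl
    rw [e0, e1]
    ring
  have hZ1 := exC_of_exL ((hTT _ hZ).mono hT₁)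
  -- the constant
  have hc : ExC T₁ q fun _ : List E =>
      (-1 : k) ^ (q + 2) * β (List.replicate (q + 1) x₁) := by
    by_cases ho : Odd (q + 1)
    · refine ⟨fun _ => (-1 : k) ^ (q + 2) * β (List.replicate (q + 1) x₁), 1, one_pos,
        fun l hl _ => ?_⟩
      rw [dl_const, hl, if_pos ho]
    · have h4 : β (List.replicate (q + 1) x₁) = 0 := by
        have h5 := hβ (List.replicate (q + 2) x₁) (List.length_replicate)
          ⟨fun y hy => by rw [(List.mem_replicate.1 hy).2]; exact hx₁,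
          fun y hy y' hy' => by
            rw [(List.mem_replicate.1 hy).2, (List.mem_replicate.1 hy').2, dist_self]
            exact hδ⟩
        have h6 : ctS φ ζ (List.replicate (q + 2) x₁) = 0 := by
          unfold ctS
          rw [List.map_replicate, hφ₁]
          exact h2 x₁ (q + 2) (by omega) []
        have h7 : dl β (List.replicate (q + 2) x₁) =
            dl (fun _ => β (List.replicate (q + 1) x₁)) (List.replicate (q + 2) x₁) := by
          refine dl_congr fun l' hl' hm => ?_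
          rw [List.length_replicate] at hl'
          have e : l' = List.replicate (q + 1) x₁ := by
            rw [List.eq_replicate_iff]
            exact ⟨by omega, fun x hx => (List.mem_replicate.1 (hm x hx)).2⟩
          rw [e]
        rw [h6, h7, dl_const, List.length_replicate,
          if_pos (by rw [Nat.odd_add_one]; exact ho)] at h5
        exact h5.symm
      refine ⟨fun _ => 0, 1, one_pos, fun l _ _ => ?_⟩
      rw [h4, mul_zero, dl_zero]
  obtain ⟨g, δ', hδ', hg⟩ := hZ1.add hc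
  refine ⟨g, δ', hδ', fun l hl hs => ?_⟩
  rw [← hg l hl hs]
  have hl0 : l ≠ [] := by
    rintro rfl
    simp at hl
  have hx : ∀ w ∈ l, st w = x₁ := fun w hw => hst₁ w (hs.1 w hw)
  have e2 : kap (fun w => φ (st w)) ζ l = ζ [x₁] l :=
    kap_const _ hl0 (fun w hw => by
      show φ (st w) = x₁
      rw [hx w hw, hφ₁]) fun n l' hn => h2 x₁ n hn l'
  have e3 : l.map st = List.replicate (q + 1) x₁ := by
    rw [List.eq_replicate_iff]
    refine ⟨by rw [List.length_map, hl], fun y hy => ?_⟩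
    obtain ⟨w, hw, rfl⟩ := List.mem_map.1 hy
    exact hx w hw
  show _ = kap (fun w => φ (st w)) ζ l - (-1 : k) ^ (q + 2) * β (l.map st) +
    (-1 : k) ^ (q + 2) * β (List.replicate (q + 1) x₁)
  rw [e2, e3]
  ring

end Vale.Agent.P216.B7x754
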